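import Vale.Agent.P269.G1I.Ser
import Vale.Agent.P269.H597.Final

/-!
# [W] and [Z0]: dimension count, the index, symmetry of the Virasoro coefficients
-/

namespace Vale.Agent.P269.G1.H246

open Finset.HasAntidiagonal (antidiagonal)
open Vale.Agent.P269.CI Vale.Agent.P269.H597

variable {X : CompleteIntersection} {F : ℕ → ℕ → List (Ins X) → ℂ}

/-- **[W]** dimension count -/
theorem vir_weight (hF : IsGW X F) (k d : ℕ) (h : index X * d ≠ k) :
    virasoro X F (k + 1) 1 d [] = 0 := by
  rw [virasoro_succ]
  refine Coh.HW_vir (degData X) (weights hF) k 1 d [] ?_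
  unfold Coh.vd
  intro h2
  apply h
  simp only [List.map_nil, List.sum_nil] at h2
  push_cast at h2
  linarith

/-- **[Q0]** -/
theorem index_eq (X : CompleteIntersection) : index X = (X.dim : ℤ) + 1 - excess X := by
  have h : ∀ l : List ℕ, (∀ d ∈ l, 1 ≤ d) →
      (((l.map fun d => d - 1).sum : ℕ) : ℤ) = (l.sum : ℤ) - l.length := by
    intro l
    induction l with
    | nil => simp
    | cons a l ih =>
      intro hl
      have h1 := ih fun d hd => hl d (List.mem_cons_of_mem _ hd)
      have h2 := hl a List.mem_cons_self
      simp only [List.map_cons, List.sum_cons, List.length_cons]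
      push_cast [Nat.cast_sub h2]
      push_cast at h1
      rw [h1]
      ring
  unfold index excess
  rw [h X.degs X.degs_pos]
  push_cast
  ring

/-- **[Z0]** -/
theorem symS_vir (hF : IsGW X F) (k : ℕ) :
    SymS (X := X) (fun d L => virasoro X F (k + 1) 1 d L) := by
  intro d L M h
  have hs : ∀ (A B : List (Fin (X.dim + 1))) (i j : Fin (X.dim + 1)),
      virasoro X F (k + 1) 1 d ((A ++ i :: j :: B).map (hpow X)) =
        virasoro X F (k + 1) 1 d ((A ++ j :: i :: B).map (hpow X)) := by
    intro A B i j
    have h1 := Coh.SymF_vir (stringG hF).symm k 1 d (A.map (hpow X)) (B.map (hpow X))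
      (hpow X i) (hpow X j)
    rw [virasoro_succ, virasoro_succ]
    simp only [List.map_append, List.map_cons]
    rw [h1]
    have h2 : (coh X).ip (hpow X i) = false := rfl
    rw [h2]
    simp
  clear hF
  have key : ∀ (L M : List (Fin (X.dim + 1))), L.Perm M → ∀ A : List (Fin (X.dim + 1)),
      virasoro X F (k + 1) 1 d ((A ++ L).map (hpow X)) =
        virasoro X F (k + 1) 1 d ((A ++ M).map (hpow X)) := by
    intro L M h
    induction h with
    | nil => intro A; rfl
    | cons x _ ih =>
      intro A
      have := ih (A ++ [x])
      simpa only [List.append_assoc, List.cons_append, List.nil_append] using this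
    | swap x y l => intro A; exact hs A l y x
    | trans _ _ ih1 ih2 => intro A; exact (ih1 A).trans (ih2 A)
  exact key L M h []

end Vale.Agent.P269.G1.H246
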